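import Vale.Agent.P295.MathlibUsed

open MvPolynomial

namespace Vale.Agent.P295

def IsCoordinate {n : ℕ} (f : MvPolynomial (Fin n) ℂ) : Prop :=
  ∃ (i : Fin n) (e : MvPolynomial (Fin n) ℂ ≃ₐ[ℂ] MvPolynomial (Fin n) ℂ), e f = X i

def IsStableCoordinateOfOrder {n : ℕ} (m : ℕ) (f : MvPolynomial (Fin n) ℂ) : Prop :=
  IsCoordinate (rename (Fin.castAdd m) f : MvPolynomial (Fin (n + m)) ℂ)

def IsStableCoordinate {n : ℕ} (f : MvPolynomial (Fin n) ℂ) : Prop :=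
  ∃ m : ℕ, 1 ≤ m ∧ IsStableCoordinateOfOrder m f

end Vale.Agent.P295
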