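import Vale.Agent.P293.N1.Bn4
import Vale.Agent.P295.Full.Step

/-!
P295: for every `n ≥ 5` there is a 1-stable coordinate of `ℂ[x_1..x_n]` which is not a coordinate.
-/

open MvPolynomial

namespace Vale.Agent.P295.Full

/-- in `A[w] = ℂ[x_0..x_n]` the element `w` is a 1-stable coordinate -/
theorem stable_of_iso {A : Type} [CommRing A] [Algebra ℂ A] (n : ℕ)
    (e : Polynomial A ≃ₐ[ℂ] MvPolynomial (Fin (n + 1)) ℂ) :
    IsStableCoordinateOfOrder 1 (e Polynomial.X) := by
  obtain ⟨L, hL1, hL2⟩ := step_exists_last (n + 1)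
  refine ⟨Fin.last (n + 1), (L.trans ((Polynomial.mapAlgEquiv e.symm).trans
    (((Polynomial.Bivariate.swap (R := A)).restrictScalars ℂ).trans
      ((Polynomial.mapAlgEquiv e).trans L.symm)))), ?_⟩
  change L.symm (Polynomial.mapAlgEquiv e (Polynomial.Bivariate.swap (R := A)
    (Polynomial.mapAlgEquiv e.symm (L (rename (Fin.castAdd 1) (e Polynomial.X)))))) = _
  rw [hL1]
  have e1 : Polynomial.mapAlgEquiv e.symm (Polynomial.C (e Polynomial.X)) =
      (Polynomial.C Polynomial.X : Polynomial (Polynomial A)) := by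
    simp
  rw [e1, Polynomial.Bivariate.swap_X]
  have e2 : Polynomial.mapAlgEquiv e (Polynomial.X : Polynomial (Polynomial A)) =
      Polynomial.X := by simp
  rw [e2, ← hL2, AlgEquiv.symm_apply_apply]

theorem every_n (n : ℕ) (hn : 5 ≤ n) : ∃ f : MvPolynomial (Fin n) ℂ,
    IsStableCoordinateOfOrder 1 f ∧ ¬ IsCoordinate f := by
  obtain ⟨k, rfl⟩ : ∃ k, n = k + 1 := ⟨n - 1, by omega⟩
  obtain ⟨A, _, _, -, ⟨e⟩, hA⟩ := Vale.Agent.P293.N1.all_dimensions k (by omega)
  refine ⟨e Polynomial.X, stable_of_iso k e, ?_⟩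
  rintro ⟨i₀, φ, hφ⟩
  obtain ⟨M, hM⟩ := step_exists_var k i₀
  exact hA (step_equiv_of_poly (e.trans (φ.trans M)) (by
    change M (φ (e Polynomial.X)) = Polynomial.X
    rw [hφ, hM]))

end Vale.Agent.P295.Full
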